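import Mathlib
import Vale.Agent.Lib.P302.Inst721.Data

namespace Vale.Agent.Lib.P302.Inst721

open Vale.Agent.Lib.P302

set_option maxRecDepth 100000 in
theorem chunk8 : KTree.all (stepOK4 SS MS GS 22 2269564 2272020 6813600 2269564 6813601 16 TT) T8 = true := by decide +kernel

set_option maxRecDepth 100000 in
theorem chunk9 : KTree.all (stepOK4 SS MS GS 22 2269564 2272020 6813600 2269564 6813601 16 TT) T9 = true := by decide +kernel

set_option maxRecDepth 100000 in
theorem chunk10 : KTree.all (stepOK4 SS MS GS 22 2269564 2272020 6813600 2269564 6813601 16 TT) T10 = true := by decide +kernel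

set_option maxRecDepth 100000 in
theorem chunk11 : KTree.all (stepOK4 SS MS GS 22 2269564 2272020 6813600 2269564 6813601 16 TT) T11 = true := by decide +kernel

set_option maxRecDepth 100000 in
theorem chunk12 : KTree.all (stepOK4 SS MS GS 22 2269564 2272020 6813600 2269564 6813601 16 TT) T12 = true := by decide +kernel

set_option maxRecDepth 100000 in
theorem chunk13 : KTree.all (stepOK4 SS MS GS 22 2269564 2272020 6813600 2269564 6813601 16 TT) T13 = true := by decide +kernel

set_option maxRecDepth 100000 in
theorem chunk14 : KTree.all (stepOK4 SS MS GS 22 2269564 2272020 6813600 2269564 6813601 16 TT) T14 = true := by decide +kernel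

set_option maxRecDepth 100000 in
theorem chunk15 : KTree.all (stepOK4 SS MS GS 22 2269564 2272020 6813600 2269564 6813601 16 TT) T15 = true := by decide +kernel

end Vale.Agent.Lib.P302.Inst721
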