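import Mathlib
import Vale.Agent.Lib.P302.Inst721.Data

namespace Vale.Agent.Lib.P302.Inst721

open Vale.Agent.Lib.P302

set_option maxRecDepth 100000 in
theorem chunk32 : KTree.all (stepOK4 SS MS GS 22 2269564 2272020 6813600 2269564 6813601 16 TT) T32 = true := by decide +kernel

set_option maxRecDepth 100000 in
theorem chunk33 : KTree.all (stepOK4 SS MS GS 22 2269564 2272020 6813600 2269564 6813601 16 TT) T33 = true := by decide +kernel

set_option maxRecDepth 100000 in
theorem chunk34 : KTree.all (stepOK4 SS MS GS 22 2269564 2272020 6813600 2269564 6813601 16 TT) T34 = true := by decide +kernel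

set_option maxRecDepth 100000 in
theorem chunk35 : KTree.all (stepOK4 SS MS GS 22 2269564 2272020 6813600 2269564 6813601 16 TT) T35 = true := by decide +kernel

set_option maxRecDepth 100000 in
theorem chunk36 : KTree.all (stepOK4 SS MS GS 22 2269564 2272020 6813600 2269564 6813601 16 TT) T36 = true := by decide +kernel

set_option maxRecDepth 100000 in
theorem chunk37 : KTree.all (stepOK4 SS MS GS 22 2269564 2272020 6813600 2269564 6813601 16 TT) T37 = true := by decide +kernel

set_option maxRecDepth 100000 in
theorem chunk38 : KTree.all (stepOK4 SS MS GS 22 2269564 2272020 6813600 2269564 6813601 16 TT) T38 = true := by decide +kernel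

set_option maxRecDepth 100000 in
theorem chunk39 : KTree.all (stepOK4 SS MS GS 22 2269564 2272020 6813600 2269564 6813601 16 TT) T39 = true := by decide +kernel

end Vale.Agent.Lib.P302.Inst721
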