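import Mathlib
import Vale.Agent.Lib.P302.Inst721.Data

namespace Vale.Agent.Lib.P302.Inst721

open Vale.Agent.Lib.P302

set_option maxRecDepth 100000 in
theorem chunk40 : KTree.all (stepOK4 SS MS GS 22 2269564 2272020 6813600 2269564 6813601 16 TT) T40 = true := by decide +kernel

set_option maxRecDepth 100000 in
theorem chunk41 : KTree.all (stepOK4 SS MS GS 22 2269564 2272020 6813600 2269564 6813601 16 TT) T41 = true := by decide +kernel

set_option maxRecDepth 100000 in
theorem chunk42 : KTree.all (stepOK4 SS MS GS 22 2269564 2272020 6813600 2269564 6813601 16 TT) T42 = true := by decide +kernel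

set_option maxRecDepth 100000 in
theorem chunk43 : KTree.all (stepOK4 SS MS GS 22 2269564 2272020 6813600 2269564 6813601 16 TT) T43 = true := by decide +kernel

set_option maxRecDepth 100000 in
theorem chunk44 : KTree.all (stepOK4 SS MS GS 22 2269564 2272020 6813600 2269564 6813601 16 TT) T44 = true := by decide +kernel

set_option maxRecDepth 100000 in
theorem chunk45 : KTree.all (stepOK4 SS MS GS 22 2269564 2272020 6813600 2269564 6813601 16 TT) T45 = true := by decide +kernel

set_option maxRecDepth 100000 in
theorem chunk46 : KTree.all (stepOK4 SS MS GS 22 2269564 2272020 6813600 2269564 6813601 16 TT) T46 = true := by decide +kernel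

set_option maxRecDepth 100000 in
theorem chunk47 : KTree.all (stepOK4 SS MS GS 22 2269564 2272020 6813600 2269564 6813601 16 TT) T47 = true := by decide +kernel

end Vale.Agent.Lib.P302.Inst721
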