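import Mathlib
import Vale.Agent.Lib.P302.Inst721.Data

namespace Vale.Agent.Lib.P302.Inst721

open Vale.Agent.Lib.P302

set_option maxRecDepth 100000 in
theorem chunk48 : KTree.all (stepOK4 SS MS GS 22 2269564 2272020 6813600 2269564 6813601 16 TT) T48 = true := by decide +kernel

set_option maxRecDepth 100000 in
theorem chunk49 : KTree.all (stepOK4 SS MS GS 22 2269564 2272020 6813600 2269564 6813601 16 TT) T49 = true := by decide +kernel

set_option maxRecDepth 100000 in
theorem chunk50 : KTree.all (stepOK4 SS MS GS 22 2269564 2272020 6813600 2269564 6813601 16 TT) T50 = true := by decide +kernel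

set_option maxRecDepth 100000 in
theorem chunk51 : KTree.all (stepOK4 SS MS GS 22 2269564 2272020 6813600 2269564 6813601 16 TT) T51 = true := by decide +kernel

set_option maxRecDepth 100000 in
theorem chunk52 : KTree.all (stepOK4 SS MS GS 22 2269564 2272020 6813600 2269564 6813601 16 TT) T52 = true := by decide +kernel

set_option maxRecDepth 100000 in
theorem chunk53 : KTree.all (stepOK4 SS MS GS 22 2269564 2272020 6813600 2269564 6813601 16 TT) T53 = true := by decide +kernel

set_option maxRecDepth 100000 in
theorem chunk54 : KTree.all (stepOK4 SS MS GS 22 2269564 2272020 6813600 2269564 6813601 16 TT) T54 = true := by decide +kernel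

set_option maxRecDepth 100000 in
theorem chunk55 : KTree.all (stepOK4 SS MS GS 22 2269564 2272020 6813600 2269564 6813601 16 TT) T55 = true := by decide +kernel

end Vale.Agent.Lib.P302.Inst721
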