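import Mathlib
import Vale.Agent.Lib.P302.Inst721.Data

namespace Vale.Agent.Lib.P302.Inst721

open Vale.Agent.Lib.P302

set_option maxRecDepth 100000 in
theorem chunk56 : KTree.all (stepOK4 SS MS GS 22 2269564 2272020 6813600 2269564 6813601 16 TT) T56 = true := by decide +kernel

set_option maxRecDepth 100000 in
theorem chunk57 : KTree.all (stepOK4 SS MS GS 22 2269564 2272020 6813600 2269564 6813601 16 TT) T57 = true := by decide +kernel

set_option maxRecDepth 100000 in
theorem chunk58 : KTree.all (stepOK4 SS MS GS 22 2269564 2272020 6813600 2269564 6813601 16 TT) T58 = true := by decide +kernel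

set_option maxRecDepth 100000 in
theorem chunk59 : KTree.all (stepOK4 SS MS GS 22 2269564 2272020 6813600 2269564 6813601 16 TT) T59 = true := by decide +kernel

set_option maxRecDepth 100000 in
theorem chunk60 : KTree.all (stepOK4 SS MS GS 22 2269564 2272020 6813600 2269564 6813601 16 TT) T60 = true := by decide +kernel

set_option maxRecDepth 100000 in
theorem chunk61 : KTree.all (stepOK4 SS MS GS 22 2269564 2272020 6813600 2269564 6813601 16 TT) T61 = true := by decide +kernel

set_option maxRecDepth 100000 in
theorem chunk62 : KTree.all (stepOK4 SS MS GS 22 2269564 2272020 6813600 2269564 6813601 16 TT) T62 = true := by decide +kernel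

set_option maxRecDepth 100000 in
theorem chunk63 : KTree.all (stepOK4 SS MS GS 22 2269564 2272020 6813600 2269564 6813601 16 TT) T63 = true := by decide +kernel

end Vale.Agent.Lib.P302.Inst721
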