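import Mathlib
import Vale.Agent.Lib.P302.Inst721.Part0
import Vale.Agent.Lib.P302.Inst721.Part1
import Vale.Agent.Lib.P302.Inst721.Part2
import Vale.Agent.Lib.P302.Inst721.Part3
import Vale.Agent.Lib.P302.Inst721.Part4
import Vale.Agent.Lib.P302.Inst721.Part5
import Vale.Agent.Lib.P302.Inst721.Part6
import Vale.Agent.Lib.P302.Inst721.Part7

namespace Vale.Agent.Lib.P302.Inst721

open Vale.Agent.Lib.P302

set_option maxRecDepth 100000 in
theorem certLP_ok : certLP SS 6813600 2340 ZZ = true := by decide +kernel

set_option maxRecDepth 100000 in
theorem pre_ok : memoPre SS MS 6813600 15 6813601 16 TT = true := by decide +kernel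

set_option maxRecDepth 100000 in
theorem range_ok : rangeOK SS 22 2269564 2272020 = true := by decide +kernel

set_option maxRecDepth 100000 in
theorem key0 : stepOK4 SS MS GS 22 2269564 2272020 6813600 2269564 6813601 16 TT 9788446973646014242742730263189702 = true := by decide +kernel

set_option maxRecDepth 100000 in
theorem key1 : stepOK4 SS MS GS 22 2269564 2272020 6813600 2269564 6813601 16 TT 9788457750122763473770972761845707 = true := by decide +kernel

set_option maxRecDepth 100000 in
theorem key2 : stepOK4 SS MS GS 22 2269564 2272020 6813600 2269564 6813601 16 TT 9788454157447292382596140810674964 = true := by decide +kernel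

set_option maxRecDepth 100000 in
theorem key3 : stepOK4 SS MS GS 22 2269564 2272020 6813600 2269564 6813601 16 TT 9788460623334923535604966964670976 = true := by decide +kernel

set_option maxRecDepth 100000 in
theorem key4 : stepOK4 SS MS GS 22 2269564 2272020 6813600 2269564 6813601 16 TT 9789676209912553432210268734000570 = true := by decide +kernel

set_option maxRecDepth 100000 in
theorem key5 : stepOK4 SS MS GS 22 2269564 2272020 6813600 2269564 6813601 16 TT 9789611551052058029374188111840306 = true := by decide +kernel

set_option maxRecDepth 100000 in
theorem key6 : stepOK4 SS MS GS 22 2269564 2272020 6813600 2269564 6813601 16 TT 9788460623333236558062180088822691 = true := by decide +kernel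

set_option maxRecDepth 100000 in
theorem key7 : stepOK4 SS MS GS 22 2269564 2272020 6813600 2269564 6813601 16 TT 14685321832321982681334086591604819 = true := by decide +kernel

set_option maxRecDepth 100000 in
theorem key8 : stepOK4 SS MS GS 22 2269564 2272020 6813600 2269564 6813601 16 TT 66694606350314477814096923896467329742152 = true := by decide +kernel

set_option maxRecDepth 100000 in
theorem key9 : stepOK4 SS MS GS 22 2269564 2272020 6813600 2269564 6813601 16 TT 66694576979668657879315569114631833893102 = true := by decide +kernel

set_option maxRecDepth 100000 in
theorem key10 : stepOK4 SS MS GS 22 2269564 2272020 6813600 2269564 6813601 16 TT 66694635720965327808477263853939820857905 = true := by decide +kernel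

set_option maxRecDepth 100000 in
theorem key11 : stepOK4 SS MS GS 22 2269564 2272020 6813600 2269564 6813601 16 TT 66694650406290752029253853206476038797622 = true := by decide +kernel

set_option maxRecDepth 100000 in
theorem key12 : stepOK4 SS MS GS 22 2269564 2272020 6813600 2269564 6813601 16 TT 66694650406282130847854491039359737038951 = true := by decide +kernel

set_option maxRecDepth 100000 in
theorem key13 : stepOK4 SS MS GS 22 2269564 2272020 6813600 2269564 6813601 16 TT 66694635720958861922427723519263699227501 = true := by decide +kernel

set_option maxRecDepth 100000 in
theorem key14 : stepOK4 SS MS GS 22 2269564 2272020 6813600 2269564 6813601 16 TT 9793741096941099136652088115056814 = true := by decide +kernel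

set_option maxRecDepth 100000 in
theorem key15 : stepOK4 SS MS GS 22 2269564 2272020 6813600 2269564 6813601 16 TT 66694665091613303040506375556490034770416 = true := by decide +kernel

set_option maxRecDepth 100000 in
theorem key16 : stepOK4 SS MS GS 22 2269564 2272020 6813600 2269564 6813601 16 TT 66702507053855543049353310371139084003755 = true := by decide +kernel

set_option maxRecDepth 100000 in
theorem key17 : stepOK4 SS MS GS 22 2269564 2272020 6813600 2269564 6813601 16 TT 66694665091615458336805189840165130628826 = true := by decide +kernel

set_option maxRecDepth 100000 in
theorem key18 : stepOK4 SS MS GS 22 2269564 2272020 6813600 2269564 6813601 16 TT 66730614761218178586786453073792122379226 = true := by decide +kernel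

set_option maxRecDepth 100000 in
theorem key19 : stepOK4 SS MS GS 22 2269564 2272020 6813600 2269564 6813601 16 TT 100059923522024427634103718429399238927230 = true := by decide +kernel

set_option maxRecDepth 100000 in
theorem key20 : stepOK4 SS MS GS 22 2269564 2272020 6813600 2269564 6813601 16 TT 66730644131865435905906634657320493187235 = true := by decide +kernel

set_option maxRecDepth 100000 in
theorem key21 : stepOK4 SS MS GS 22 2269564 2272020 6813600 2269564 6813601 16 TT 66702507053859853641318293785263875113355 = true := by decide +kernel

set_option maxRecDepth 100000 in
theorem key22 : stepOK4 SS MS GS 22 2269564 2272020 6813600 2269564 6813601 16 TT 100059923527307056536050853785093379205599 = true := by decide +kernel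

set_option maxRecDepth 100000 in
theorem key23 : stepOK4 SS MS GS 22 2269564 2272020 6813600 2269564 6813601 16 TT 454430436523109076349326358855969647936622402357 = true := by decide +kernel

set_option maxRecDepth 100000 in
theorem key24 : stepOK4 SS MS GS 22 2269564 2272020 6813600 2269564 6813601 16 TT 454430236403252238562966051084841230649742028822 = true := by decide +kernel

set_option maxRecDepth 100000 in
theorem key25 : stepOK4 SS MS GS 22 2269564 2272020 6813600 2269564 6813601 16 TT 454430636643009970101903874672397832667999291228 = true := by decide +kernel

set_option maxRecDepth 100000 in
theorem key26 : stepOK4 SS MS GS 22 2269564 2272020 6813600 2269564 6813601 16 TT 454430736702953074317993996370428571770911310401 = true := by decide +kernel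

set_option maxRecDepth 100000 in
theorem key27 : stepOK4 SS MS GS 22 2269564 2272020 6813600 2269564 6813601 16 TT 454430736702923703672174059691163492704652435225 = true := by decide +kernel

set_option maxRecDepth 100000 in
theorem key28 : stepOK4 SS MS GS 22 2269564 2272020 6813600 2269564 6813601 16 TT 454430636642965914134250840282185907951548661630 = true := by decide +kernel

set_option maxRecDepth 100000 in
theorem key29 : stepOK4 SS MS GS 22 2269564 2272020 6813600 2269564 6813601 16 TT 100059923522028738225119734369024475102431 = true := by decide +kernel

set_option maxRecDepth 100000 in
theorem key30 : stepOK4 SS MS GS 22 2269564 2272020 6813600 2269564 6813601 16 TT 66694665091608274535948784298192498500307 = true := by decide +kernel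

set_option maxRecDepth 100000 in
theorem key31 : stepOK4 SS MS GS 22 2269564 2272020 6813600 2269564 6813601 16 TT 454430836762881493210097281314398904833100604835 = true := by decide +kernel

set_option maxRecDepth 100000 in
theorem key32 : stepOK4 SS MS GS 22 2269564 2272020 6813600 2269564 6813601 16 TT 454675983587522465951766056457906868839581101604 = true := by decide +kernel

set_option maxRecDepth 100000 in
theorem key33 : stepOK4 SS MS GS 22 2269564 2272020 6813600 2269564 6813601 16 TT 454430836762896178539832091209069062285618954402 = true := by decide +kernel

set_option maxRecDepth 100000 in
theorem key34 : stepOK4 SS MS GS 22 2269564 2272020 6813600 2269564 6813601 16 TT 681768394969618532800131962761394545056752018332 = true := by decide +kernel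

set_option maxRecDepth 100000 in
theorem key35 : stepOK4 SS MS GS 22 2269564 2272020 6813600 2269564 6813601 16 TT 681768428334896545402919045534662231599542383132 = true := by decide +kernel

set_option maxRecDepth 100000 in
theorem key36 : stepOK4 SS MS GS 22 2269564 2272020 6813600 2269564 6813601 16 TT 681768428334891648529496975540797790017951478324 = true := by decide +kernel

set_option maxRecDepth 100000 in
theorem key37 : stepOK4 SS MS GS 22 2269564 2272020 6813600 2269564 6813601 16 TT 681768394969589162148564053574164542827851743121 = true := by decide +kernel

set_option maxRecDepth 100000 in
theorem key38 : stepOK4 SS MS GS 22 2269564 2272020 6813600 2269564 6813601 16 TT 3096309722029877710197739318842350317823816639000772765 = true := by decide +kernel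

set_option maxRecDepth 100000 in
theorem key39 : stepOK4 SS MS GS 22 2269564 2272020 6813600 2269564 6813601 16 TT 4645297817733487864589874861742660803980496617076633527 = true := by decide +kernel

set_option maxRecDepth 100000 in
theorem key40 : stepOK4 SS MS GS 22 2269564 2272020 6813600 2269564 6813601 16 TT 4645297817732887505014469932701277049322421929674839969 = true := by decide +kernel

set_option maxRecDepth 100000 in
theorem key41 : stepOK4 SS MS GS 22 2269564 2272020 6813600 2269564 6813601 16 TT 31651205856206710647624106727195782298387691032798908971943132 = true := by decide +kernel

set_option maxRecDepth 100000 in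
theorem key42 : stepOK4 SS MS GS 22 2269564 2272020 6813600 2269564 6813601 16 TT 1469412323262538448165069131949278145393857556438004694913113824082021432479 = true := by decide +kernel

set_option maxRecDepth 100000 in
theorem key43 : stepOK4 SS MS GS 22 2269564 2272020 6813600 2269564 6813601 16 TT 1469412323262538448165069131949278145393854020949502511959543096740058337670 = true := by decide +kernel

set_option maxRecDepth 100000 in
theorem key44 : stepOK4 SS MS GS 22 2269564 2272020 6813600 2269564 6813601 16 TT 21097009727734361348603819582981778388622138180622479560589567 = true := by decide +kernel

set_option maxRecDepth 100000 in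
theorem key45 : stepOK4 SS MS GS 22 2269564 2272020 6813600 2269564 6813601 16 TT 3096308358492720860619391831665906396176910788222019164 = true := by decide +kernel

set_option maxRecDepth 100000 in
theorem key46 : stepOK4 SS MS GS 22 2269564 2272020 6813600 2269564 6813601 16 TT 10011989275193955232955963202518733520733714317822044675553852723916457856097487304 = true := by decide +kernel

set_option maxRecDepth 100000 in
theorem key47 : stepOK4 SS MS GS 22 2269564 2272020 6813600 2269564 6813601 16 TT 10011989275193955232955963202518733520733733240403508587425498810674470144002508277 = true := by decide +kernel

set_option maxRecDepth 100000 in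
theorem key48 : stepOK4 SS MS GS 22 2269564 2272020 6813600 2269564 6813601 16 TT 10011989275193955232955963202518733520733733240402141914958226178936054529497570240 = true := by decide +kernel

set_option maxRecDepth 100000 in
theorem key49 : stepOK4 SS MS GS 22 2269564 2272020 6813600 2269564 6813601 16 TT 68217700137450808569223983832644845235604720554422922708838518597808748092089123591407766 = true := by decide +kernel

set_option maxRecDepth 100000 in
theorem key50 : stepOK4 SS MS GS 22 2269564 2272020 6813600 2269564 6813601 16 TT 68217700137450808569223983832644845235604756609626601422031733692192095186072142365842503 = true := by decide +kernel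

set_option maxRecDepth 100000 in
theorem key51 : stepOK4 SS MS GS 22 2269564 2272020 6813600 2269564 6813601 16 TT 68217700137450808569223983832644845235604720554432234671868114656651685021917446711118967 = true := by decide +kernel

set_option maxRecDepth 100000 in
theorem key52 : stepOK4 SS MS GS 22 2269564 2272020 6813600 2269564 6813601 16 TT 68217700137450808569223983832644845235604556059511946611256877065365575294278165234177000 = true := by decide +kernel

set_option maxRecDepth 100000 in
theorem key53 : stepOK4 SS MS GS 22 2269564 2272020 6813600 2269564 6813601 16 TT 68217700137450808569223983832644845235604885540544862987386651620569277186892652013773672 = true := by decide +kernel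

set_option maxRecDepth 100000 in
theorem key54 : stepOK4 SS MS GS 22 2269564 2272020 6813600 2269564 6813601 16 TT 464808189874234966718073105466092750142160438771646658930222585380489749377968366558130473656035 = true := by decide +kernel

set_option maxRecDepth 100000 in
theorem key55 : stepOK4 SS MS GS 22 2269564 2272020 6813600 2269564 6813601 16 TT 68217700137450808569223983832644845235604885540546586514790965929396529773233159726624876 = true := by decide +kernel

set_option maxRecDepth 100000 in
theorem key56 : stepOK4 SS MS GS 22 2269564 2272020 6813600 2269564 6813601 16 TT 464808189874234966718073105466092750142161758879854443793400194558356591768683499549997366016701 = true := by decide +kernel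

set_option maxRecDepth 100000 in
theorem key57 : stepOK4 SS MS GS 22 2269564 2272020 6813600 2269564 6813601 16 TT 3167017547335277243465229629476874976272560836652232665265812662836214441332163439580404197516819463954 = true := by decide +kernel

set_option maxRecDepth 100000 in
theorem key58 : stepOK4 SS MS GS 22 2269564 2272020 6813600 2269564 6813601 16 TT 464808189874234966718073105466092750142162683723890314428549210574315334348020545702970845284338 = true := by decide +kernel

set_option maxRecDepth 100000 in
theorem key59 : stepOK4 SS MS GS 22 2269564 2272020 6813600 2269564 6813601 16 TT 464808189874234966718073105466092750142161559574336580591864839193188117619975368345327684345566 = true := by decide +kernel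

set_option maxRecDepth 100000 in
theorem key60 : stepOK4 SS MS GS 22 2269564 2272020 6813600 2269564 6813601 16 TT 68217700137450808569223983832644845235604885540537274551761369688794624221522618822371176 = true := by decide +kernel

set_option maxRecDepth 100000 in
theorem key61 : stepOK4 SS MS GS 22 2269564 2272020 6813600 2269564 6813601 16 TT 10011989275193955232955963202518733520733709026171639614350001390030681523141371067 = true := by decide +kernel

set_option maxRecDepth 100000 in
theorem key62 : stepOK4 SS MS GS 22 2269564 2272020 6813600 2269564 6813601 16 TT 454430836762852122564995257544064130480223025630 = true := by decide +kernel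

theorem all_ok : KTree.all (stepOK4 SS MS GS 22 2269564 2272020 6813600 2269564 6813601 16 TT) TT = true :=
  (KTree.all_node key62 (KTree.all_node key30 (KTree.all_node key14 (KTree.all_node key6 (KTree.all_node key2 (KTree.all_node key0 chunk0 chunk1) (KTree.all_node key1 chunk2 chunk3)) (KTree.all_node key5 (KTree.all_node key3 chunk4 chunk5) (KTree.all_node key4 chunk6 chunk7))) (KTree.all_node key13 (KTree.all_node key9 (KTree.all_node key7 chunk8 chunk9) (KTree.all_node key8 chunk10 chunk11)) (KTree.all_node key12 (KTree.all_node key10 chunk12 chunk13) (KTree.all_node key11 chunk14 chunk15)))) (KTree.all_node key29 (KTree.all_node key21 (KTree.all_node key17 (KTree.all_node key15 chunk16 chunk17) (KTree.all_node key16 chunk18 chunk19)) (KTree.all_node key20 (KTree.all_node key18 chunk20 chunk21) (KTree.all_node key19 chunk22 chunk23))) (KTree.all_node key28 (KTree.all_node key24 (KTree.all_node key22 chunk24 chunk25) (KTree.all_node key23 chunk26 chunk27)) (KTree.all_node key27 (KTree.all_node key25 chunk28 chunk29) (KTree.all_node key26 chunk30 chunk31))))) (KTree.all_node key61 (KTree.all_node key45 (KTree.all_node key37 (KTree.all_node key33 (KTree.all_node key31 chunk32 chunk33) (KTree.all_node key32 chunk34 chunk35))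 (KTree.all_node key36 (KTree.all_node key34 chunk36 chunk37) (KTree.all_node key35 chunk38 chunk39))) (KTree.all_node key44 (KTree.all_node key40 (KTree.all_node key38 chunk40 chunk41) (KTree.all_node key39 chunk42 chunk43)) (KTree.all_node key43 (KTree.all_node key41 chunk44 chunk45) (KTree.all_node key42 chunk46 chunk47)))) (KTree.all_node key60 (KTree.all_node key52 (KTree.all_node key48 (KTree.all_node key46 chunk48 chunk49) (KTree.all_node key47 chunk50 chunk51)) (KTree.all_node key51 (KTree.all_node key49 chunk52 chunk53) (KTree.all_node key50 chunk54 chunk55))) (KTree.all_node key59 (KTree.all_node key55 (KTree.all_node key53 chunk56 chunk57) (KTree.all_node key54 chunk58 chunk59)) (KTree.all_node key58 (KTree.all_node key56 chunk60 chunk61) (KTree.all_node key57 chunk62 chunk63))))))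

theorem not_packable : ¬ Packable (SS.map (fun n : ℕ => (n : ℚ) / (6813600 : ℕ))) 15 :=
  not_packable_of_memo4 SS MS GS 6813600 15 22 2269564 2272020 6813600 2269564 6813601 16 TT (by norm_num) pre_ok range_ok all_ok

end Vale.Agent.Lib.P302.Inst721
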